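import Mathlib

namespace Vale.Agent.P042

def Ranked (Q n L : ℕ) : Prop :=
  ∃ (X : Finset ℕ) (r : ℕ → ℕ), n ≤ X.card ∧ (∀ x ∈ X, x < Q ^ 2) ∧ (∀ x ∈ X, r x < L) ∧
    ∀ x ∈ X, ∀ y ∈ X, ∀ z : ℕ, x ≠ y → y ≡ x + z ^ 2 [MOD Q ^ 2] → r x < r y

def Good (N s : ℕ) : Prop :=
  ∃ T : Finset ℕ, s ≤ T.card ∧ (∀ a ∈ T, a < N) ∧
    ∀ a ∈ T, ∀ b ∈ T, ∀ z : ℕ, a = b + z ^ 2 → z = 0

theorem Ranked.one : Ranked 1 1 1 := by
  refine ⟨{0}, fun _ => 0, by simp, by simp, by simp, ?_⟩
  intro x hx y hy z hxy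
  simp only [Finset.mem_singleton] at hx hy
  omega

theorem Ranked.mono {Q n L n' L' : ℕ} (h : Ranked Q n L) (hn : n' ≤ n) (hL : L ≤ L') :
    Ranked Q n' L' := by
  obtain ⟨X, r, h1, h2, h3, h4⟩ := h
  exact ⟨X, r, hn.trans h1, h2, fun x hx => lt_of_lt_of_le (h3 x hx) hL, h4⟩

theorem Ranked.lex {Q1 n1 L1 Q2 n2 L2 : ℕ} (hQ : 0 < Q1) (h1 : Ranked Q1 n1 L1)
    (h2 : Ranked Q2 n2 L2) : Ranked (Q1 * Q2) (n1 * n2) (L1 * L2) := by
  obtain ⟨X1, r1, hc1, hb1, hl1, hr1⟩ := h1
  obtain ⟨X2, r2, hc2, hb2, hl2, hr2⟩ := h2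
  have hQ2 : 0 < Q1 ^ 2 := by positivity
  have hmod : ∀ a b : ℕ, a < Q1 ^ 2 → (a + Q1 ^ 2 * b) % Q1 ^ 2 = a := by
    intro a b ha
    rw [Nat.add_mul_mod_self_left, Nat.mod_eq_of_lt ha]
  have hdiv : ∀ a b : ℕ, a < Q1 ^ 2 → (a + Q1 ^ 2 * b) / Q1 ^ 2 = b := by
    intro a b ha
    rw [Nat.add_mul_div_left _ _ hQ2, Nat.div_eq_of_lt ha, zero_add]
  refine ⟨(X1 ×ˢ X2).image (fun p => p.1 + Q1 ^ 2 * p.2),
    fun x => r1 (x % Q1 ^ 2) * L2 + r2 (x / Q1 ^ 2), ?_, ?_, ?_, ?_⟩
  · rw [Finset.card_image_of_injOn, Finset.card_product]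
    · exact Nat.mul_le_mul hc1 hc2
    · rintro ⟨a, b⟩ hab ⟨c, d⟩ hcd heq
      simp only [Finset.coe_product, Set.mem_prod, Finset.mem_coe] at hab hcd heq
      have ha := hb1 a hab.1
      have hc := hb1 c hcd.1
      have e1 := hmod a b ha
      have e2 := hdiv a b ha
      rw [heq] at e1 e2
      rw [hmod c d hc] at e1
      rw [hdiv c d hc] at e2
      rw [e1, e2]
  · intro x hx
    simp only [Finset.mem_image, Finset.mem_product, Prod.exists] at hx
    obtain ⟨a, b, ⟨ha, hb⟩, rfl⟩ := hx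
    have ha' := hb1 a ha
    have hb' := hb2 b hb
    calc a + Q1 ^ 2 * b < Q1 ^ 2 + Q1 ^ 2 * b := by omega
      _ = Q1 ^ 2 * (b + 1) := by ring
      _ ≤ Q1 ^ 2 * Q2 ^ 2 := Nat.mul_le_mul_left _ hb'
      _ = (Q1 * Q2) ^ 2 := by ring
  · intro x hx
    simp only [Finset.mem_image, Finset.mem_product, Prod.exists] at hx
    obtain ⟨a, b, ⟨ha, hb⟩, rfl⟩ := hx
    have ha' := hb1 a ha
    simp only [hmod a b ha', hdiv a b ha']
    have h3 := hl1 a ha
    have h4 := hl2 b hb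
    calc r1 a * L2 + r2 b < r1 a * L2 + L2 := by omega
      _ = (r1 a + 1) * L2 := by ring
      _ ≤ L1 * L2 := Nat.mul_le_mul_right _ h3
  · intro x hx y hy z hxy hz
    simp only [Finset.mem_image, Finset.mem_product, Prod.exists] at hx hy
    obtain ⟨a, b, ⟨ha, hb⟩, rfl⟩ := hx
    obtain ⟨c, d, ⟨hc, hd⟩, rfl⟩ := hy
    have ha' := hb1 a ha
    have hc' := hb1 c hc
    simp only [hmod a b ha', hdiv a b ha', hmod c d hc', hdiv c d hc']
    have hz1 : c ≡ a + z ^ 2 [MOD Q1 ^ 2] := by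
      have h5 : c + Q1 ^ 2 * d ≡ a + Q1 ^ 2 * b + z ^ 2 [MOD Q1 ^ 2] := by
        refine Nat.ModEq.of_dvd ?_ hz
        exact Dvd.intro (Q2 ^ 2) (by ring)
      have h6 : c + Q1 ^ 2 * d ≡ c [MOD Q1 ^ 2] := by
        simp [Nat.ModEq]
      have h7 : a + Q1 ^ 2 * b + z ^ 2 ≡ a + z ^ 2 [MOD Q1 ^ 2] := by
        have : a + Q1 ^ 2 * b + z ^ 2 = a + z ^ 2 + Q1 ^ 2 * b := by ring
        rw [this]
        simp [Nat.ModEq]
      exact h6.symm.trans (h5.trans h7)
    by_cases hac : a = c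
    · subst hac
      have hbd : b ≠ d := by
        rintro rfl
        exact hxy rfl
      have hdz : Q1 ^ 2 ∣ z ^ 2 := by
        have h8 : a + 0 ≡ a + z ^ 2 [MOD Q1 ^ 2] := by simpa using hz1
        have h9 := Nat.ModEq.add_left_cancel' a h8
        exact (Nat.modEq_zero_iff_dvd).1 h9.symm
      have hdz' : Q1 ∣ z := (Nat.pow_dvd_pow_iff (by norm_num)).1 hdz
      obtain ⟨w, rfl⟩ := hdz'
      have h10 : d ≡ b + w ^ 2 [MOD Q2 ^ 2] := by
        have h11 : a + Q1 ^ 2 * d ≡ a + (Q1 ^ 2 * (b + w ^ 2)) [MOD (Q1 ^ 2 * Q2 ^ 2)] := by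
          have e1 : a + Q1 ^ 2 * (b + w ^ 2) = a + Q1 ^ 2 * b + (Q1 * w) ^ 2 := by ring
          have e2 : Q1 ^ 2 * Q2 ^ 2 = (Q1 * Q2) ^ 2 := by ring
          rw [e1, e2]
          exact hz
        have h12 := Nat.ModEq.add_left_cancel' a h11
        exact Nat.ModEq.mul_left_cancel' (by positivity) h12
      have h13 := hr2 b hb d hd w hbd h10
      omega
    · have h14 := hr1 a ha c hc z hac hz1
      have h15 := hl2 b hb
      calc r1 a * L2 + r2 b < r1 a * L2 + L2 := by omega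
        _ = (r1 a + 1) * L2 := by ring
        _ ≤ r1 c * L2 := Nat.mul_le_mul_right _ h14
        _ ≤ r1 c * L2 + r2 d := Nat.le_add_right _ _

theorem Ranked.pow {Q n L : ℕ} (hQ : 0 < Q) (h : Ranked Q n L) (a : ℕ) :
    Ranked (Q ^ a) (n ^ a) (L ^ a) := by
  induction a with
  | zero => simpa using Ranked.one
  | succ a ih =>
    have := Ranked.lex (by positivity) ih h
    simpa [pow_succ] using this

theorem Ranked.mul_coprime {Q1 n1 L1 Q2 n2 L2 : ℕ} (hc : Nat.Coprime Q1 Q2)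
    (hQ1 : 0 < Q1) (hQ2 : 0 < Q2) (h1 : Ranked Q1 n1 L1)
    (h2 : Ranked Q2 n2 L2) : Ranked (Q1 * Q2) (n1 * n2) (L1 + L2) := by
  obtain ⟨X1, r1, hc1, hb1, hl1, hr1⟩ := h1
  obtain ⟨X2, r2, hc2, hb2, hl2, hr2⟩ := h2
  have hcop : Nat.Coprime (Q1 ^ 2) (Q2 ^ 2) := hc.pow 2 2
  have hp1 : Q1 ^ 2 ≠ 0 := by positivity
  have hp2 : Q2 ^ 2 ≠ 0 := by positivity
  set f : ℕ × ℕ → ℕ := fun p => (Nat.chineseRemainder hcop p.1 p.2 : ℕ) with hf
  have hf1 : ∀ a b : ℕ, a ∈ X1 → f (a, b) % Q1 ^ 2 = a := by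
    intro a b ha
    have := (Nat.chineseRemainder hcop a b).2.1
    have h3 : f (a, b) % Q1 ^ 2 = a % Q1 ^ 2 := this
    rw [h3, Nat.mod_eq_of_lt (hb1 a ha)]
  have hf2 : ∀ a b : ℕ, b ∈ X2 → f (a, b) % Q2 ^ 2 = b := by
    intro a b hb
    have := (Nat.chineseRemainder hcop a b).2.2
    have h3 : f (a, b) % Q2 ^ 2 = b % Q2 ^ 2 := this
    rw [h3, Nat.mod_eq_of_lt (hb2 b hb)]
  refine ⟨(X1 ×ˢ X2).image f, fun x => r1 (x % Q1 ^ 2) + r2 (x % Q2 ^ 2), ?_, ?_, ?_, ?_⟩
  · rw [Finset.card_image_of_injOn, Finset.card_product]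
    · exact Nat.mul_le_mul hc1 hc2
    · rintro ⟨a, b⟩ hab ⟨c, d⟩ hcd heq
      simp only [Finset.coe_product, Set.mem_prod, Finset.mem_coe] at hab hcd heq
      have e1 := hf1 a b hab.1
      have e2 := hf2 a b hab.2
      rw [heq] at e1 e2
      rw [hf1 c d hcd.1] at e1
      rw [hf2 c d hcd.2] at e2
      rw [e1, e2]
  · intro x hx
    simp only [Finset.mem_image, Finset.mem_product, Prod.exists] at hx
    obtain ⟨a, b, ⟨ha, hb⟩, rfl⟩ := hx
    have := Nat.chineseRemainder_lt_mul hcop a b hp1 hp2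
    calc f (a, b) < Q1 ^ 2 * Q2 ^ 2 := this
      _ = (Q1 * Q2) ^ 2 := by ring
  · intro x hx
    simp only [Finset.mem_image, Finset.mem_product, Prod.exists] at hx
    obtain ⟨a, b, ⟨ha, hb⟩, rfl⟩ := hx
    simp only [hf1 a b ha, hf2 a b hb]
    have h3 := hl1 a ha
    have h4 := hl2 b hb
    omega
  · intro x hx y hy z hxy hz
    simp only [Finset.mem_image, Finset.mem_product, Prod.exists] at hx hy
    obtain ⟨a, b, ⟨ha, hb⟩, rfl⟩ := hx
    obtain ⟨c, d, ⟨hc, hd⟩, rfl⟩ := hy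
    simp only [hf1 a b ha, hf1 c d hc, hf2 a b hb, hf2 c d hd]
    have hz1 : c ≡ a + z ^ 2 [MOD Q1 ^ 2] := by
      have h5 : f (c, d) ≡ f (a, b) + z ^ 2 [MOD Q1 ^ 2] :=
        Nat.ModEq.of_dvd (Dvd.intro (Q2 ^ 2) (by ring)) hz
      have h6 : f (c, d) ≡ c [MOD Q1 ^ 2] := (Nat.chineseRemainder hcop c d).2.1
      have h7 : f (a, b) ≡ a [MOD Q1 ^ 2] := (Nat.chineseRemainder hcop a b).2.1
      exact h6.symm.trans (h5.trans (h7.add_right _))
    have hz2 : d ≡ b + z ^ 2 [MOD Q2 ^ 2] := by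
      have h5 : f (c, d) ≡ f (a, b) + z ^ 2 [MOD Q2 ^ 2] :=
        Nat.ModEq.of_dvd (Dvd.intro (Q1 ^ 2) (by ring)) hz
      have h6 : f (c, d) ≡ d [MOD Q2 ^ 2] := (Nat.chineseRemainder hcop c d).2.2
      have h7 : f (a, b) ≡ b [MOD Q2 ^ 2] := (Nat.chineseRemainder hcop a b).2.2
      exact h6.symm.trans (h5.trans (h7.add_right _))
    by_cases hac : a = c
    · subst hac
      by_cases hbd : b = d
      · subst hbd
        exact absurd rfl hxy
      · have := hr2 b hb d hd z hbd hz2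
        omega
    · have h3 := hr1 a ha c hc z hac hz1
      by_cases hbd : b = d
      · subst hbd
        omega
      · have := hr2 b hb d hd z hbd hz2
        omega

theorem Good.step {Q n L N s : ℕ} (hQ : 0 < Q) (h : Ranked Q n L) (g : Good N s) :
    Good (Q ^ 2 * L * N) (n * s) := by
  obtain ⟨X, r, hc, hb, hl, hr⟩ := h
  obtain ⟨T, tc, tb, tr⟩ := g
  have hQ2 : 0 < Q ^ 2 := by positivity
  set f : ℕ × ℕ → ℕ := fun p => p.1 + Q ^ 2 * ((L - 1 - r p.1) * N + p.2) with hf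
  have hf1 : ∀ a b : ℕ, a ∈ X → f (a, b) % Q ^ 2 = a := by
    intro a b ha
    simp only [hf]
    rw [Nat.add_mul_mod_self_left, Nat.mod_eq_of_lt (hb a ha)]
  have hf2 : ∀ a b : ℕ, a ∈ X → f (a, b) / Q ^ 2 = (L - 1 - r a) * N + b := by
    intro a b ha
    simp only [hf]
    rw [Nat.add_mul_div_left _ _ hQ2, Nat.div_eq_of_lt (hb a ha), zero_add]
  refine ⟨(X ×ˢ T).image f, ?_, ?_, ?_⟩
  · rw [Finset.card_image_of_injOn, Finset.card_product]
    · exact Nat.mul_le_mul hc tc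
    · rintro ⟨a, b⟩ hab ⟨c, d⟩ hcd heq
      simp only [Finset.coe_product, Set.mem_prod, Finset.mem_coe] at hab hcd heq
      have e1 := hf1 a b hab.1
      have e2 := hf2 a b hab.1
      rw [heq] at e1 e2
      rw [hf1 c d hcd.1] at e1
      rw [hf2 c d hcd.1] at e2
      subst e1
      have : b = d := by omega
      rw [this]
  · intro x hx
    simp only [Finset.mem_image, Finset.mem_product, Prod.exists] at hx
    obtain ⟨a, b, ⟨ha, hb'⟩, rfl⟩ := hx
    have h1 := hb a ha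
    have h2 := hl a ha
    have h3 := tb b hb'
    have h4 : (L - 1 - r a) * N + b + 1 ≤ L * N := by
      calc (L - 1 - r a) * N + b + 1 ≤ (L - 1 - r a) * N + N := by omega
        _ = (L - 1 - r a + 1) * N := by ring
        _ ≤ L * N := Nat.mul_le_mul_right _ (by omega)
    calc f (a, b) < Q ^ 2 + Q ^ 2 * ((L - 1 - r a) * N + b) := by
          simp only [hf]; omega
      _ = Q ^ 2 * ((L - 1 - r a) * N + b + 1) := by ring
      _ ≤ Q ^ 2 * (L * N) := Nat.mul_le_mul_left _ h4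
      _ = Q ^ 2 * L * N := by ring
  · intro x hx y hy z hz
    simp only [Finset.mem_image, Finset.mem_product, Prod.exists] at hx hy
    obtain ⟨a, b, ⟨ha, hbT⟩, rfl⟩ := hx
    obtain ⟨c, d, ⟨hc', hdT⟩, rfl⟩ := hy
    have hza : a ≡ c + z ^ 2 [MOD Q ^ 2] := by
      have h5 : f (a, b) ≡ f (c, d) + z ^ 2 [MOD Q ^ 2] := by rw [hz]
      have h6 : f (a, b) ≡ a [MOD Q ^ 2] := by
        have := hf1 a b ha
        rw [Nat.ModEq, this, Nat.mod_eq_of_lt (hb a ha)]
      have h7 : f (c, d) ≡ c [MOD Q ^ 2] := by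
        have := hf1 c d hc'
        rw [Nat.ModEq, this, Nat.mod_eq_of_lt (hb c hc')]
      exact h6.symm.trans (h5.trans (h7.add_right _))
    by_cases hac : a = c
    · subst hac
      have h1 : Q ^ 2 * ((L - 1 - r a) * N + b) = Q ^ 2 * ((L - 1 - r a) * N + d) + z ^ 2 := by
        simp only [hf] at hz
        omega
      have h2 : Q ^ 2 ∣ z ^ 2 := by
        rw [← Nat.dvd_add_right (Dvd.intro _ rfl : Q ^ 2 ∣ Q ^ 2 * ((L - 1 - r a) * N + d)), ← h1]
        exact Dvd.intro _ rfl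
      have h3 : Q ∣ z := (Nat.pow_dvd_pow_iff (by norm_num)).1 h2
      obtain ⟨w, rfl⟩ := h3
      have h4 : Q ^ 2 * ((L - 1 - r a) * N + b) = Q ^ 2 * ((L - 1 - r a) * N + d + w ^ 2) := by
        rw [h1]; ring
      have h5 := Nat.eq_of_mul_eq_mul_left hQ2 h4
      have h6 : b = d + w ^ 2 := by omega
      have h7 := tr b hbT d hdT w h6
      rw [h7, mul_zero]
    · exfalso
      have h1 := hr c hc' a ha z (fun h => hac h.symm) hza
      have h2 := hl a ha
      have h3 := hb a ha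
      have h4 := tb b hbT
      have h5 : (L - 1 - r a) * N + b + 1 ≤ (L - 1 - r c) * N + d := by
        calc (L - 1 - r a) * N + b + 1 ≤ (L - 1 - r a) * N + N := by omega
          _ = (L - 1 - r a + 1) * N := by ring
          _ ≤ (L - 1 - r c) * N := Nat.mul_le_mul_right _ (by omega)
          _ ≤ (L - 1 - r c) * N + d := Nat.le_add_right _ _
      have h6 : f (a, b) < f (c, d) := by
        calc f (a, b) < Q ^ 2 + Q ^ 2 * ((L - 1 - r a) * N + b) := by
              simp only [hf]; omega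
          _ = Q ^ 2 * ((L - 1 - r a) * N + b + 1) := by ring
          _ ≤ Q ^ 2 * ((L - 1 - r c) * N + d) := Nat.mul_le_mul_left _ h5
          _ ≤ f (c, d) := by simp only [hf]; omega
      omega

theorem Good.one : Good 1 1 := by
  refine ⟨{0}, by simp, by simp, ?_⟩
  intro a ha b hb z hz
  simp only [Finset.mem_singleton] at ha hb
  subst ha hb
  have : z ^ 2 = 0 := by omega
  exact pow_eq_zero_iff (by norm_num) |>.1 this

theorem Good.iterate {Q n L : ℕ} (hQ : 0 < Q) (h : Ranked Q n L) (j : ℕ) :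
    Good ((Q ^ 2 * L) ^ j) (n ^ j) := by
  induction j with
  | zero => simpa using Good.one
  | succ j ih =>
    have := Good.step hQ h ih
    rw [pow_succ' (Q ^ 2 * L) j, pow_succ' n j]
    exact this

theorem Ranked.base {p : ℕ} (hp : p.Prime) (V : List ℕ) (hnd : V.Nodup)
    (hlt : ∀ x ∈ V, x < p)
    (h : ∀ i < V.length, ∀ j < i, ∀ z < p, V.getD j 0 % p ≠ (V.getD i 0 + z ^ 2) % p) :
    Ranked p (p * V.length) V.length := by
  have hp0 : 0 < p := hp.pos
  have hmod : ∀ a b : ℕ, a < p → (a + p * b) % p = a := by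
    intro a b ha
    rw [Nat.add_mul_mod_self_left, Nat.mod_eq_of_lt ha]
  have hdiv : ∀ a b : ℕ, a < p → (a + p * b) / p = b := by
    intro a b ha
    rw [Nat.add_mul_div_left _ _ hp0, Nat.div_eq_of_lt ha, zero_add]
  refine ⟨(V.toFinset ×ˢ Finset.range p).image (fun q => q.1 + p * q.2),
    fun x => V.idxOf (x % p), ?_, ?_, ?_, ?_⟩
  · rw [Finset.card_image_of_injOn, Finset.card_product, List.toFinset_card_of_nodup hnd,
      Finset.card_range, mul_comm]
    rintro ⟨a, b⟩ hab ⟨c, d⟩ hcd heq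
    simp only [Finset.coe_product, Set.mem_prod, Finset.mem_coe, List.mem_toFinset] at hab hcd heq
    have ha := hlt a hab.1
    have hc := hlt c hcd.1
    have e1 := hmod a b ha
    have e2 := hdiv a b ha
    rw [heq] at e1 e2
    rw [hmod c d hc] at e1
    rw [hdiv c d hc] at e2
    rw [e1, e2]
  · intro x hx
    simp only [Finset.mem_image, Finset.mem_product, Prod.exists, List.mem_toFinset,
      Finset.mem_range] at hx
    obtain ⟨a, b, ⟨ha, hb⟩, rfl⟩ := hx
    have ha' := hlt a ha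
    calc a + p * b < p + p * b := by omega
      _ = p * (b + 1) := by ring
      _ ≤ p * p := Nat.mul_le_mul_left _ hb
      _ = p ^ 2 := by ring
  · intro x hx
    simp only [Finset.mem_image, Finset.mem_product, Prod.exists, List.mem_toFinset,
      Finset.mem_range] at hx
    obtain ⟨a, b, ⟨ha, hb⟩, rfl⟩ := hx
    simp only [hmod a b (hlt a ha)]
    exact List.idxOf_lt_length_iff.2 ha
  · intro x hx y hy z hxy hz
    simp only [Finset.mem_image, Finset.mem_product, Prod.exists, List.mem_toFinset,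
      Finset.mem_range] at hx hy
    obtain ⟨a, b, ⟨ha, hb⟩, rfl⟩ := hx
    obtain ⟨c, d, ⟨hc, hd⟩, rfl⟩ := hy
    have ha' := hlt a ha
    have hc' := hlt c hc
    simp only [hmod a b ha', hmod c d hc']
    have hz1 : c ≡ a + z ^ 2 [MOD p] := by
      have h5 : c + p * d ≡ a + p * b + z ^ 2 [MOD p] :=
        Nat.ModEq.of_dvd (Dvd.intro p (by ring)) hz
      have h6 : c + p * d ≡ c [MOD p] := by simp [Nat.ModEq]
      have h7 : a + p * b + z ^ 2 ≡ a + z ^ 2 [MOD p] := by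
        have : a + p * b + z ^ 2 = a + z ^ 2 + p * b := by ring
        rw [this]
        simp [Nat.ModEq]
      exact h6.symm.trans (h5.trans h7)
    by_cases hac : a = c
    · exfalso
      subst hac
      have h8 : a + 0 ≡ a + z ^ 2 [MOD p] := by simpa using hz1
      have h9 : p ∣ z ^ 2 := (Nat.modEq_zero_iff_dvd).1 (Nat.ModEq.add_left_cancel' a h8).symm
      have h10 : p ∣ z := hp.dvd_of_dvd_pow h9
      obtain ⟨w, rfl⟩ := h10
      have h11 : a + p * d ≡ a + p * b [MOD p ^ 2] := by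
        refine hz.trans ?_
        have : a + p * b + (p * w) ^ 2 = a + p * b + p ^ 2 * w ^ 2 := by ring
        rw [this]
        simp [Nat.ModEq]
      have hlt1 : a + p * d < p ^ 2 := by
        calc a + p * d < p + p * d := by omega
          _ = p * (d + 1) := by ring
          _ ≤ p * p := Nat.mul_le_mul_left _ hd
          _ = p ^ 2 := by ring
      have hlt2 : a + p * b < p ^ 2 := by
        calc a + p * b < p + p * b := by omega
          _ = p * (b + 1) := by ring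
          _ ≤ p * p := Nat.mul_le_mul_left _ hb
          _ = p ^ 2 := by ring
      have := Nat.ModEq.eq_of_lt_of_lt h11 hlt1 hlt2
      exact hxy this.symm
    · by_contra hcon
      have hia := List.idxOf_lt_length_iff.2 ha
      have hic := List.idxOf_lt_length_iff.2 hc
      have hne : V.idxOf c ≠ V.idxOf a := by
        intro heq
        apply hac
        have e1 := List.getElem_idxOf hia
        have e2 := List.getElem_idxOf hic
        rw [← e1, ← e2]
        congr 1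
        exact heq.symm
      have hlt' : V.idxOf c < V.idxOf a := by omega
      have := h (V.idxOf a) hia (V.idxOf c) hlt' (z % p) (Nat.mod_lt _ hp0)
      apply this
      rw [List.getD_eq_getElem _ _ hic, List.getD_eq_getElem _ _ hia, List.getElem_idxOf,
        List.getElem_idxOf]
      have h12 : a + z ^ 2 ≡ a + (z % p) ^ 2 [MOD p] :=
        Nat.ModEq.add_left _ ((Nat.mod_modEq z p).symm.pow 2)
      exact hz1.trans h12

def chk (p : ℕ) (V : List ℕ) : Bool :=
  decide V.Nodup && V.all (fun x => decide (x < p)) &&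
    (List.range V.length).all (fun i => (List.range i).all (fun j =>
      (List.range p).all (fun z => V.getD j 0 % p != (V.getD i 0 + z ^ 2) % p)))

theorem Ranked.base' {p : ℕ} (hp : p.Prime) (V : List ℕ) (h : chk p V = true) :
    Ranked p (p * V.length) V.length := by
  simp only [chk, Bool.and_eq_true, List.all_eq_true, decide_eq_true_eq, List.mem_range,
    bne_iff_ne] at h
  exact Ranked.base hp V h.1.1 h.1.2 h.2

def chk2 (Q L : ℕ) (l : List (ℕ × ℕ)) : Bool :=
  decide (l.map Prod.fst).Nodup && l.all (fun q => decide (q.1 < Q ^ 2) && decide (q.2 < L)) &&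
    l.all (fun a => l.all (fun b => a.1 == b.1 || decide (a.2 < b.2) ||
      (List.range (Q ^ 2)).all (fun z => b.1 % Q ^ 2 != (a.1 + z ^ 2) % Q ^ 2)))

theorem Ranked.base2 {Q L : ℕ} (hQ : 0 < Q) (l : List (ℕ × ℕ)) (h : chk2 Q L l = true) :
    Ranked Q l.length L := by
  simp only [chk2, Bool.and_eq_true, List.all_eq_true, decide_eq_true_eq, List.mem_range,
    bne_iff_ne, Bool.or_eq_true, beq_iff_eq] at h
  obtain ⟨⟨h1, h2⟩, h3⟩ := h
  have hval : ∀ q ∈ l, (l.lookup q.1).getD 0 = q.2 := by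
    clear h2 h3
    induction l with
    | nil => simp
    | cons a l ih =>
      intro q hq
      simp only [List.map_cons, List.nodup_cons] at h1
      rcases List.mem_cons.1 hq with rfl | hq
      · simp [List.lookup]
      · have hne : (q.1 == a.1) = false := by
          rw [beq_eq_false_iff_ne]
          intro heq
          apply h1.1
          rw [← heq]
          exact List.mem_map_of_mem hq
        rw [List.lookup, hne]
        exact ih h1.2 q hq
  refine ⟨(l.map Prod.fst).toFinset, fun x => (l.lookup x).getD 0, ?_, ?_, ?_, ?_⟩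
  · rw [List.toFinset_card_of_nodup h1, List.length_map]
  · intro x hx
    rw [List.mem_toFinset, List.mem_map] at hx
    obtain ⟨q, hq, rfl⟩ := hx
    exact (h2 q hq).1
  · intro x hx
    rw [List.mem_toFinset, List.mem_map] at hx
    obtain ⟨q, hq, rfl⟩ := hx
    simp only [hval q hq]
    exact (h2 q hq).2
  · intro x hx y hy z hxy hz
    rw [List.mem_toFinset, List.mem_map] at hx hy
    obtain ⟨q, hq, rfl⟩ := hx
    obtain ⟨q', hq', rfl⟩ := hy
    simp only [hval q hq, hval q' hq']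
    rcases h3 q hq q' hq' with (h4 | h4) | h4
    · exact absurd h4 hxy
    · exact h4
    · exfalso
      apply h4 (z % Q ^ 2) (Nat.mod_lt _ (by positivity))
      have h12 : q.1 + z ^ 2 ≡ q.1 + (z % Q ^ 2) ^ 2 [MOD Q ^ 2] :=
        Nat.ModEq.add_left _ ((Nat.mod_modEq z (Q ^ 2)).symm.pow 2)
      exact hz.trans h12

end Vale.Agent.P042
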