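import Vale.Agent.P042.Rate

namespace Vale.Agent.P042

theorem block1 : ∃ Q n L : ℕ, 0 < Q ∧ 2 ≤ Q ^ 2 * L ∧ Ranked Q n L ∧
    (Q ^ 2 * L) ^ 34 ≤ n ^ 45 := by
  have h1 := r2.pow (by norm_num) 73
  have h2 := h1.mul_coprime (by decide +kernel) (by positivity) (by positivity)
    (r3.pow (by norm_num) 189)
  have h3 := h2.mul_coprime (by decide +kernel) (by positivity) (by positivity)
    (r7.pow (by norm_num) 119)
  have h4 := h3.mul_coprime (by decide +kernel) (by positivity) (by positivity)
    (r11.pow (by norm_num) 94)
  have h5 := h4.mul_coprime (by decide +kernel) (by positivity) (by positivity)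
    (r19.pow (by norm_num) 81)
  have h6 := h5.mul_coprime (by decide +kernel) (by positivity) (by positivity)
    (r23.pow (by norm_num) 79)
  have h7 := h6.mul_coprime (by decide +kernel) (by positivity) (by positivity)
    (r31.pow (by norm_num) 67)
  have h8 := h7.mul_coprime (by decide +kernel) (by positivity) (by positivity)
    (r43.pow (by norm_num) 66)
  have h9 := h8.mul_coprime (by decide +kernel) (by positivity) (by positivity)
    (r59.pow (by norm_num) 59)
  have h10 := h9.mul_coprime (by decide +kernel) (by positivity) (by positivity)
    (r71.pow (by norm_num) 58)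
  have h11 := h10.mul_coprime (by decide +kernel) (by positivity) (by positivity)
    (r103.pow (by norm_num) 53)
  exact ⟨_, _, _, by positivity, by decide +kernel, h11, by decide +kernel⟩

end Vale.Agent.P042
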