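import Mathlib

namespace Vale.Agent.P042

noncomputable def rmax (h : Polynomial ℤ) (N : ℕ) : ℕ :=
  sSup {k : ℕ | ∃ A : Finset ℤ, (∀ a ∈ A, 1 ≤ a ∧ a ≤ (N : ℤ)) ∧
    (∀ a ∈ A, ∀ b ∈ A, ∀ n : ℕ, 1 ≤ n → a - b = h.eval (n : ℤ) → a - b = 0) ∧ A.card = k}

end Vale.Agent.P042
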