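import Vale.Agent.P042.Basic
import Vale.Agent.P042.Defs

namespace Vale.Agent.P042

open Polynomial

theorem rmax_bdd (h : ℤ[X]) (N : ℕ) : BddAbove {k : ℕ | ∃ A : Finset ℤ,
    (∀ a ∈ A, 1 ≤ a ∧ a ≤ (N : ℤ)) ∧
    (∀ a ∈ A, ∀ b ∈ A, ∀ n : ℕ, 1 ≤ n → a - b = h.eval (n : ℤ) → a - b = 0) ∧ A.card = k} := by
  refine ⟨N, ?_⟩
  rintro k ⟨A, hA, -, rfl⟩
  have : A ⊆ Finset.Icc (1 : ℤ) N := by
    intro a ha
    exact Finset.mem_Icc.2 (hA a ha)
  have := Finset.card_le_card this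
  simpa using this

theorem le_rmax (h : ℤ[X]) (N : ℕ) (A : Finset ℤ) (hA : ∀ a ∈ A, 1 ≤ a ∧ a ≤ (N : ℤ))
    (hd : ∀ a ∈ A, ∀ b ∈ A, ∀ n : ℕ, 1 ≤ n → a - b = h.eval (n : ℤ) → a - b = 0) :
    A.card ≤ rmax h N :=
  le_csSup (rmax_bdd h N) ⟨A, hA, hd, rfl⟩

theorem one_le_rmax (h : ℤ[X]) (N : ℕ) (hN : 1 ≤ N) : 1 ≤ rmax h N := by
  have := le_rmax h N {1} (by simpa using hN) (by simp)
  simpa using this

theorem good_le_rmax {N s : ℕ} (hg : Good N s) (m : ℕ) (hm : 1 ≤ m) (g : ℤ[X]) (N' : ℕ)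
    (hN : m * N ≤ N') : s ≤ rmax (C (m : ℤ) * g ^ 2) N' := by
  obtain ⟨T, hc, hb, hr⟩ := hg
  have hinj : Function.Injective (fun t : ℕ => (1 : ℤ) + m * t) := by
    intro a b hab
    have hm' : (m : ℤ) ≠ 0 := by exact_mod_cast (by omega : m ≠ 0)
    have h1 : (m : ℤ) * a = m * b := by simpa using hab
    exact_mod_cast mul_left_cancel₀ hm' h1
  have key := le_rmax (C (m : ℤ) * g ^ 2) N' (T.image (fun t : ℕ => (1 : ℤ) + m * t)) ?_ ?_
  · rw [Finset.card_image_of_injective _ hinj] at key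
    exact hc.trans key
  · intro a ha
    rw [Finset.mem_image] at ha
    obtain ⟨t, ht, rfl⟩ := ha
    have h1 := hb t ht
    constructor
    · have : (0 : ℤ) ≤ m * t := by positivity
      linarith
    · have h2 : m * t + 1 ≤ N' := by
        calc m * t + 1 ≤ m * t + m := by omega
          _ = m * (t + 1) := by ring
          _ ≤ m * N := Nat.mul_le_mul_left _ h1
          _ ≤ N' := hN
      have h3 : ((m * t + 1 : ℕ) : ℤ) ≤ N' := by exact_mod_cast h2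
      push_cast at h3
      linarith
  · intro a ha b hb' k hk hab
    rw [Finset.mem_image] at ha hb'
    obtain ⟨t, ht, rfl⟩ := ha
    obtain ⟨u, hu, rfl⟩ := hb'
    have hm' : (m : ℤ) ≠ 0 := by exact_mod_cast (by omega : m ≠ 0)
    have h1 : (m : ℤ) * ((t : ℤ) - u) = m * (g.eval (k : ℤ)) ^ 2 := by
      have : (1 : ℤ) + m * t - (1 + m * u) = m * ((t : ℤ) - u) := by ring
      rw [← this, hab]
      simp
    have h2 : (t : ℤ) - u = (g.eval (k : ℤ)) ^ 2 := mul_left_cancel₀ hm' h1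
    have h3 : t = u + (g.eval (k : ℤ)).natAbs ^ 2 := by
      zify
      rw [sq_abs]
      linarith
    have h4 := hr t ht u hu _ h3
    have h5 : t = u := by rw [h4] at h3; simpa using h3
    rw [h5]
    ring

theorem lower {Q n L p q : ℕ} (hQ : 0 < Q) (hM : 2 ≤ Q ^ 2 * L) (h : Ranked Q n L)
    (hq : 0 < q) (hpq : (Q ^ 2 * L) ^ p ≤ n ^ q) (m : ℕ) (hm : 1 ≤ m) (g : ℤ[X]) :
    ∃ c : ℝ, 0 < c ∧ ∀ N : ℕ, 1 ≤ N →
      c * (N : ℝ) ^ ((p : ℝ) / (q : ℝ)) ≤ (rmax (C (m : ℤ) * g ^ 2) N : ℝ) := by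
  set M := Q ^ 2 * L with hMdef
  set γ : ℝ := (p : ℝ) / (q : ℝ) with hγ
  have hγ0 : 0 ≤ γ := by positivity
  have hM0 : (0 : ℝ) < M := by exact_mod_cast (by omega : 0 < M)
  have hm0 : (0 : ℝ) < m := by exact_mod_cast (by omega : 0 < m)
  have hMγ : (M : ℝ) ^ γ ≤ n := by
    have h1 : ((M : ℝ) ^ γ) ^ q ≤ (n : ℝ) ^ q := by
      rw [← Real.rpow_natCast ((M : ℝ) ^ γ) q, ← Real.rpow_mul hM0.le]
      have : γ * (q : ℝ) = (p : ℝ) := by
        rw [hγ]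
        field_simp
      rw [this, Real.rpow_natCast]
      exact_mod_cast hpq
    exact le_of_pow_le_pow_left₀ hq.ne' (by positivity) h1
  refine ⟨1 / ((m : ℝ) * M) ^ γ, by positivity, ?_⟩
  intro N hN
  have hN0 : (0 : ℝ) ≤ N := by positivity
  rw [div_mul_eq_mul_div, one_mul, div_le_iff₀ (by positivity)]
  by_cases hlt : N < m
  · have h1 : (N : ℝ) ≤ (m : ℝ) * M := by
      have : (N : ℝ) ≤ m := by exact_mod_cast hlt.le
      have h2 : (1 : ℝ) ≤ M := by exact_mod_cast (by omega : 1 ≤ M)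
      nlinarith
    have h2 : (N : ℝ) ^ γ ≤ ((m : ℝ) * M) ^ γ := Real.rpow_le_rpow hN0 h1 hγ0
    have h3 : (1 : ℝ) ≤ rmax (C (m : ℤ) * g ^ 2) N := by
      exact_mod_cast one_le_rmax _ N hN
    have h4 : (0 : ℝ) ≤ ((m : ℝ) * M) ^ γ := by positivity
    nlinarith
  · push Not at hlt
    set j := Nat.log M (N / m) with hj
    have hdiv : N / m ≠ 0 := by
      have := Nat.div_pos hlt (by omega : 0 < m)
      omega
    have h1 : M ^ j ≤ N / m := Nat.pow_log_le_self M hdiv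
    have h2 : N / m < M ^ (j + 1) := Nat.lt_pow_succ_log_self (by omega) _
    have h3 : m * M ^ j ≤ N := by
      calc m * M ^ j ≤ m * (N / m) := Nat.mul_le_mul_left _ h1
        _ ≤ N := Nat.mul_div_le N m
    have h4 : N ≤ m * M ^ (j + 1) := by
      have h5 : N < m * (N / m + 1) := by
        have := Nat.lt_mul_div_succ N (by omega : 0 < m)
        simpa using this
      calc N ≤ m * (N / m + 1) := h5.le
        _ ≤ m * M ^ (j + 1) := Nat.mul_le_mul_left _ h2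
    have h5 : n ^ j ≤ rmax (C (m : ℤ) * g ^ 2) N :=
      good_le_rmax (Good.iterate hQ h j) m hm g N h3
    have h6 : (N : ℝ) ≤ ((m : ℝ) * M) * (M : ℝ) ^ j := by
      have : (N : ℝ) ≤ ((m * M ^ (j + 1) : ℕ) : ℝ) := by exact_mod_cast h4
      push_cast at this
      rw [pow_succ] at this
      linarith
    calc (N : ℝ) ^ γ ≤ (((m : ℝ) * M) * (M : ℝ) ^ j) ^ γ := Real.rpow_le_rpow hN0 h6 hγ0
      _ = ((m : ℝ) * M) ^ γ * ((M : ℝ) ^ j) ^ γ := Real.mul_rpow (by positivity) (by positivity)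
      _ = ((m : ℝ) * M) ^ γ * ((M : ℝ) ^ γ) ^ j := by
          congr 1
          rw [← Real.rpow_natCast, ← Real.rpow_natCast, ← Real.rpow_mul hM0.le,
            ← Real.rpow_mul hM0.le, mul_comm]
      _ ≤ ((m : ℝ) * M) ^ γ * (n : ℝ) ^ j := by
          gcongr
      _ ≤ ((m : ℝ) * M) ^ γ * (rmax (C (m : ℤ) * g ^ 2) N : ℝ) := by
          gcongr
          exact_mod_cast h5
      _ = (rmax (C (m : ℤ) * g ^ 2) N : ℝ) * ((m : ℝ) * M) ^ γ := by ring

end Vale.Agent.P042
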