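import Vale.Agent.P042.Basic

namespace Vale.Agent.P042

theorem prime3 : Nat.Prime 3 := by norm_num
theorem prime7 : Nat.Prime 7 := by norm_num
theorem prime11 : Nat.Prime 11 := by norm_num
theorem prime19 : Nat.Prime 19 := by norm_num
theorem prime23 : Nat.Prime 23 := by norm_num
theorem prime31 : Nat.Prime 31 := by norm_num
theorem prime43 : Nat.Prime 43 := by norm_num
theorem prime59 : Nat.Prime 59 := by norm_num
theorem prime71 : Nat.Prime 71 := by norm_num
theorem prime103 : Nat.Prime 103 := by norm_num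

theorem r2 : Ranked 4 10 6 :=
  Ranked.base2 (by norm_num) [(0, 0), (1, 1), (2, 2), (3, 5), (5, 2), (6, 3), (8, 0), (10, 4),
    (11, 5), (13, 0)] (by decide +kernel)

theorem r3 : Ranked 3 6 2 := Ranked.base' prime3 [0, 1] (by decide +kernel)
theorem r7 : Ranked 7 21 3 := Ranked.base' prime7 [0, 4, 1] (by decide +kernel)
theorem r11 : Ranked 11 44 4 := Ranked.base' prime11 [0, 9, 3, 1] (by decide +kernel)
theorem r19 : Ranked 19 95 5 := Ranked.base' prime19 [0, 17, 7, 4, 5] (by decide +kernel)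
theorem r23 : Ranked 23 115 5 := Ranked.base' prime23 [0, 18, 1, 13, 3] (by decide +kernel)
theorem r31 : Ranked 31 217 7 :=
  Ranked.base' prime31 [0, 28, 7, 16, 25, 4, 1] (by decide +kernel)
theorem r43 : Ranked 43 301 7 :=
  Ranked.base' prime43 [0, 41, 23, 11, 15, 21, 36] (by decide +kernel)
theorem r59 : Ranked 59 531 9 :=
  Ranked.base' prime59 [0, 57, 3, 25, 15, 51, 7, 19, 1] (by decide +kernel)
theorem r71 : Ranked 71 639 9 :=
  Ranked.base' prime71 [0, 64, 25, 2, 29, 3, 8, 12, 18] (by decide +kernel)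
theorem r103 : Ranked 103 1133 11 :=
  Ranked.base' prime103 [0, 100, 16, 33, 97, 23, 52, 13, 30, 49, 46] (by decide +kernel)

end Vale.Agent.P042
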